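import Vale.Agent.P073Z.GRID.Planes0
import Vale.Agent.P073Z.Indic

/-!
# The target grid: recursion for the planes
-/

open Set Metric Topology Filter MeasureTheory
open scoped ENNReal NNReal

namespace P073

namespace Grid

theorem exists_planes {ι κ : Type} [Countable ι] {f : E3 → E3} (a b : ι → E3) (W : ℕ → Set E3)
    (hW : ∀ n, IsOpen (W n))
    (hf : ∀ e, a e ≠ b e ∧ ContinuousOn f (segment ℝ (a e) (b e)) ∧ segVar f (a e) (b e) < ⊤)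
    (hfin : ∀ n, {e | (f '' segment ℝ (a e) (b e) ∩ W n).Nonempty}.Finite) (R : ℝ) (d : ℕ → ℝ)
    (hd : ∀ n, 0 < d n) (ε : ι → ℕ → ℝ≥0∞) (hε : ∀ e n, ε e n ≠ 0) (T : Fin 3 → Set ℝ)
    (hT : ∀ j, ∀ᵐ t : ℝ, t ∈ T j) (s : Finset κ) (co : κ → Fin 3) (A : κ → Set ℝ)
    (hA : ∀ k ∈ s, volume (A k) ≠ 0) :
    ∃ (P : ℕ → Fin 3 → Finset ℝ) (h : ℕ → ℝ), (∀ n j, P n j ⊆ P (n + 1) j) ∧
      (∀ n, 0 < h n ∧ h n ≤ d n) ∧ (∀ n j, ∀ t ∈ P n j, t ∈ T j) ∧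
      (∀ n j, ∀ x ∈ Icc (-R) R, (∃ t ∈ P n j, x - h n ≤ t ∧ t < x) ∧
        ∃ t ∈ P n j, x < t ∧ t ≤ x + h n) ∧
      (∀ n i j, i ≠ j → ∀ e, ∀ x ∈ segment ℝ (a e) (b e), f x i ∈ P n i → f x j ∉ P n j) ∧
      (∀ k ∈ s, ∃ t ∈ A k, t ∈ P 0 (co k)) ∧
      ∀ e n j, ENNReal.ofReal (h n) * ∑ t ∈ P n j, cnt f (a e) (b e) (W n ∩ {y | y j = t}) ≤
        2 * (∫⁻ t : ℝ, cnt f (a e) (b e) (W n ∩ {y | y j = t})) + ε e n := by
  obtain ⟨P, h, h1, h2, h3, h4, h5, h6⟩ := Pl.core (f := f) (c := fun e => segment ℝ (a e) (b e))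
    hT (fun e j => ae_cnt_finite (hf e).1 (hf e).2.1 (hf e).2.2 j)
    (fun n e j t => cnt f (a e) (b e) (W n ∩ {y | y j = t}))
    (fun n e j => measurable_cnt (hf e).1 (hf e).2.1 (hW n) j)
    (fun n e j => ne_top_of_le_ne_top (hf e).2.2.ne
      ((lintegral_mono fun t => cnt_mono f _ _ inter_subset_right).trans
        (lintegral_cnt_le (hf e).1 (hf e).2.1 j)))
    (fun n e j t ht => by
      refine ne_top_of_le_ne_top ?_ (cnt_mono f _ _ inter_subset_right)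
      have : {x ∈ segment ℝ (a e) (b e) | f x ∈ {y : E3 | y j = t}}.encard ≠ ⊤ :=
        ht.encard_lt_top.ne
      simpa [cnt] using this)
    (fun n => ⟨(hfin n).toFinset, fun e he j t => by
      have : {x ∈ segment ℝ (a e) (b e) | f x ∈ W n ∩ {y : E3 | y j = t}} = ∅ :=
        eq_empty_of_forall_notMem fun x hx =>
          he ((hfin n).mem_toFinset.2 ⟨f x, ⟨x, hx.1, rfl⟩, hx.2.1⟩)
      simp only [cnt]
      rw [this]
      simp⟩) R d hd ε hε s co A hA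
  exact ⟨P, h, h1, h2, fun n j t ht => ((h3 n).1 j t ht).1, h4, fun n => (h3 n).2, h5, h6⟩

end Grid

end P073
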