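import Vale.Agent.P073Z.GRID.Defs
import Vale.Agent.P073Z.RCX

/-!
# The weighted crossing sum of a complex of boxes
-/

open Set Metric Topology Filter MeasureTheory
open scoped ENNReal NNReal

namespace P073

namespace Grid

theorem cnt_eq_tsum (f : E3 → E3) (a b : E3) (X : Set E3) :
    cnt f a b X = ∑' x : E3, ({x ∈ segment ℝ a b | f x ∈ X} : Set E3).indicator 1 x := by
  unfold cnt
  rw [← tsum_subtype, ← ENNReal.tsum_set_one]
  rfl

theorem Gap.eq_of_mem {P : Finset ℝ} {a b a' b' y : ℝ} (h : Gap P a b) (h' : Gap P a' b')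
    (hy : a ≤ y ∧ y ≤ b) (hy' : a' ≤ y ∧ y ≤ b') (hs : y < b ↔ y < b') : a = a' ∧ b = b' := by
  obtain ⟨h1, h2, h3, h4⟩ := h
  obtain ⟨h1', h2', h3', h4'⟩ := h'
  by_cases hb : y < b
  · have hb' := hs.1 hb
    rcases h4 a' h1' with p | p <;> rcases h4 b' h2' with q | q <;>
      rcases h4' a h1 with r | r <;> rcases h4' b h2 with s | s <;>
      constructor <;> linarith [hy.1, hy.2, hy'.1, hy'.2]
  · have hb' : ¬ y < b' := fun h => hb (hs.2 h)
    push Not at hb hb'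
    rcases h4 a' h1' with p | p <;> rcases h4' a h1 with r | r <;>
      constructor <;> linarith [hy.1, hy.2, hy'.1, hy'.2]

variable {K : RCx E3} {P : ℕ → Fin 3 → Finset ℝ} {W : ℕ → Set E3}
  {lev : K.ι → ℕ} {lo hi : K.ι → E3}

theorem BoxCx.gap (h : BoxCx K P W lev lo hi) {Q : K.ι} (hQ : K.dim Q = 3) (j : Fin 3) :
    Gap (P (lev Q) j) (lo Q j) (hi Q j) := by
  have h1 := h.dim Q
  rw [hQ] at h1
  have h2 : (Finset.univ.filter fun j => lo Q j < hi Q j) = Finset.univ :=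
    Finset.eq_univ_of_card _ (by rw [← h1]; simp)
  have h3 : lo Q j < hi Q j := by
    have : j ∈ Finset.univ.filter fun j => lo Q j < hi Q j := by rw [h2]; exact Finset.mem_univ j
    exact (Finset.mem_filter.1 this).2
  exact (h.box Q j).resolve_left fun h4 => h3.ne h4.1

open Classical in
theorem BoxCx.point_le (h : BoxCx K P W lev lo hi) {d : ℕ → ℝ}
    (hd : ∀ i j, hi i j - lo i j ≤ d (lev i)) {y : E3} (hy : y ∉ K.skel 1) :
    ∑' q : K.ι × K.ι, ({q : K.ι × K.ι | (K.dim q.1 = 2 ∧ K.dim q.2 = 3 ∧ K.cell q.1 ⊆ K.cell q.2) ∧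
        y ∈ K.cell q.1}).indicator (fun q => ENNReal.ofReal (diam (K.cell q.2))) q ≤
      ∑' n, 8 * (ENNReal.ofReal (d n) *
        ∑ j, ∑ t ∈ P n j, (W n ∩ {y | y j = t}).indicator 1 y) := by
  set T := {q : K.ι × K.ι | (K.dim q.1 = 2 ∧ K.dim q.2 = 3 ∧ K.cell q.1 ⊆ K.cell q.2) ∧
    y ∈ K.cell q.1} with hT
  set g : ℕ → ℝ≥0∞ := fun n => ENNReal.ofReal (d n) *
    ∑ j, ∑ t ∈ P n j, (W n ∩ {y | y j = t}).indicator 1 y with hg
  have hoc : ∀ q ∈ T, y ∈ K.ocell q.1 := fun q hq => by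
    refine ⟨hq.2, fun hb => hy ?_⟩
    obtain ⟨j, hj, -, hlt⟩ := K.bdry _ y hb
    exact K.mem_skel.2 ⟨j, by have := hq.1.1; omega, hj.1⟩
  have hmem : ∀ q ∈ T, ∀ j, lo q.2 j ≤ y j ∧ y j ≤ hi q.2 j := fun q hq j => by
    have h1 := hq.1.2.2 hq.2
    rw [h.cell] at h1
    exact ⟨h1.1 j, h1.2 j⟩
  let φ : T → ℕ × (Fin 3 → Bool) := fun q => (lev q.1.2, fun j => decide (y j < hi q.1.2 j))
  have hφ : Function.Injective φ := by
    rintro ⟨q, hq⟩ ⟨q', hq'⟩ he
    have h1 : lev q.2 = lev q'.2 := congrArg Prod.fst he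
    have h2 : ∀ j, y j < hi q.2 j ↔ y j < hi q'.2 j := fun j =>
      decide_eq_decide.1 (congrFun (congrArg Prod.snd he) j)
    have h3 : ∀ j, lo q.2 j = lo q'.2 j ∧ hi q.2 j = hi q'.2 j := fun j =>
      (h.gap hq.1.2.1 j).eq_of_mem (h1 ▸ h.gap hq'.1.2.1 j) (hmem q hq j) (hmem q' hq' j) (h2 j)
    have h4 : q.2 = q'.2 := K.cell_injective (by
      rw [h.cell, h.cell, funext fun j => (h3 j).1, funext fun j => (h3 j).2])
    exact Subtype.ext (Prod.ext (K.ocell_unique (hoc q hq) (hoc q' hq')) h4)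
  have hle : ∀ q : T, ENNReal.ofReal (diam (K.cell q.1.2)) ≤ g (φ q).1 := by
    rintro ⟨q, hq⟩
    have hgap := h.gap hq.1.2.1
    have hd0 : 0 ≤ d (lev q.2) := by linarith [hd q.2 0, (hgap 0).2.2.1]
    have h1 : diam (K.cell q.2) ≤ d (lev q.2) := by
      refine diam_le_of_forall_dist_le hd0 fun u hu v hv => (dist_pi_le_iff hd0).2 fun j => ?_
      rw [h.cell] at hu hv
      rw [Real.dist_eq, abs_le]
      constructor <;> linarith [hd q.2 j, hu.1 j, hu.2 j, hv.1 j, hv.2 j]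
    have h2 : y ∉ K.ocell q.2 := fun h2 => by
      have := K.ocell_unique (hoc q hq) h2
      have h3 := hq.1.1
      have h4 := hq.1.2.1
      rw [this] at h3
      omega
    rw [h.ocell] at h2
    obtain ⟨j, hj⟩ := not_forall.1 h2
    have h3 : y j ∈ P (lev q.2) j := by
      rcases (hmem q hq j).1.eq_or_lt with p | p
      · rw [← p]; exact (hgap j).1
      · rcases (hmem q hq j).2.eq_or_lt with r | r
        · rw [r]; exact (hgap j).2.1
        · exact absurd (Or.inr ⟨p, r⟩) hj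
    have h4 : (1 : ℝ≥0∞) ≤ ∑ j, ∑ t ∈ P (lev q.2) j,
        (W (lev q.2) ∩ {y | y j = t}).indicator 1 y := by
      refine le_trans ?_ (Finset.single_le_sum (f := fun j => ∑ t ∈ P (lev q.2) j,
        (W (lev q.2) ∩ {y : E3 | y j = t}).indicator (1 : E3 → ℝ≥0∞) y) (fun _ _ => zero_le)
        (Finset.mem_univ j))
      refine le_trans ?_ (Finset.single_le_sum (f := fun t =>
        (W (lev q.2) ∩ {y : E3 | y j = t}).indicator (1 : E3 → ℝ≥0∞) y) (fun _ _ => zero_le) h3)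
      rw [indicator_of_mem (show y ∈ W (lev q.2) ∩ {z : E3 | z j = y j} from
        ⟨h.sub _ (hq.1.2.2 hq.2), rfl⟩)]
      exact le_rfl
    exact (ENNReal.ofReal_le_ofReal h1).trans (le_mul_of_one_le_right zero_le h4)
  rw [← tsum_subtype]
  refine (ENNReal.tsum_le_tsum hle).trans ((ENNReal.tsum_comp_le_tsum_of_injective hφ
    fun p => g p.1).trans (le_of_eq ?_))
  rw [ENNReal.tsum_prod']
  refine tsum_congr fun n => ?_
  rw [tsum_fintype]
  simp [hg]

theorem BoxCx.crossSum_le {K : RCx E3} {P : ℕ → Fin 3 → Finset ℝ} {W : ℕ → Set E3}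
    {lev : K.ι → ℕ} {lo hi : K.ι → E3} (h : BoxCx K P W lev lo hi) {d : ℕ → ℝ}
    (hd : ∀ i j, hi i j - lo i j ≤ d (lev i)) {f : E3 → E3} {a b : E3}
    (hs : Disjoint (f '' segment ℝ a b) (K.skel 1)) :
    crossSum K f a b ≤ ∑' n, 8 * (ENNReal.ofReal (d n) *
      ∑ j, ∑ t ∈ P n j, cnt f a b (W n ∩ {y | y j = t})) := by
  classical
  have hL : crossSum K f a b = ∑' x : E3, ∑' q : K.ι × K.ι,
      if K.dim q.1 = 2 ∧ K.dim q.2 = 3 ∧ K.cell q.1 ⊆ K.cell q.2 then
        ENNReal.ofReal (diam (K.cell q.2)) *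
          ({x ∈ segment ℝ a b | f x ∈ K.cell q.1} : Set E3).indicator 1 x else 0 := by
    unfold crossSum
    rw [ENNReal.tsum_comm]
    refine tsum_congr fun q => ?_
    split_ifs
    · rw [cnt_eq_tsum, ENNReal.tsum_mul_left]
    · rw [tsum_zero]
  have hR : ∑' n, 8 * (ENNReal.ofReal (d n) *
      ∑ j, ∑ t ∈ P n j, cnt f a b (W n ∩ {y | y j = t})) = ∑' x : E3, ∑' n,
      8 * (ENNReal.ofReal (d n) * ∑ j, ∑ t ∈ P n j,
        ({x ∈ segment ℝ a b | f x ∈ W n ∩ {y | y j = t}} : Set E3).indicator 1 x) := by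
    rw [ENNReal.tsum_comm]
    refine tsum_congr fun n => ?_
    rw [ENNReal.tsum_mul_left, ENNReal.tsum_mul_left,
      Summable.tsum_finsetSum fun _ _ => ENNReal.summable]
    congr 2
    refine Finset.sum_congr rfl fun j _ => ?_
    rw [Summable.tsum_finsetSum fun _ _ => ENNReal.summable]
    exact Finset.sum_congr rfl fun t _ => cnt_eq_tsum _ _ _ _
  rw [hL, hR]
  refine ENNReal.tsum_le_tsum fun x => ?_
  by_cases hx : x ∈ segment ℝ a b
  · have hy : f x ∉ K.skel 1 := Set.disjoint_left.1 hs (mem_image_of_mem f hx)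
    refine le_trans (le_of_eq (tsum_congr fun q => ?_)) ((h.point_le hd hy).trans
      (le_of_eq (tsum_congr fun n => ?_)))
    · by_cases h1 : K.dim q.1 = 2 ∧ K.dim q.2 = 3 ∧ K.cell q.1 ⊆ K.cell q.2 <;>
        by_cases h2 : f x ∈ K.cell q.1 <;> simp [indicator, h1, h2, hx]
    · congr 2
      refine Finset.sum_congr rfl fun j _ => Finset.sum_congr rfl fun t _ => ?_
      simp [indicator, hx]
  · refine le_trans (le_of_eq ?_) zero_le
    simp [indicator, hx]

end Grid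

end P073
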