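import Vale.Agent.P073Z.GRID.Defs
import Vale.Agent.P073Z.RCX

/-!
# The target grid: the complex of boxes
-/

open Set Metric Topology Filter
open scoped ENNReal NNReal

namespace P073

/-- the dimension of a box is the number of its proper sides -/
theorem finrank_vectorSpan_Icc {n : ℕ} {lo hi : Fin n → ℝ} (h : lo ≤ hi) :
    Module.finrank ℝ (vectorSpan ℝ (Icc lo hi)) =
      (Finset.univ.filter fun j => lo j < hi j).card := by
  classical
  set s := Finset.univ.filter fun j => lo j < hi j with hs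
  have h1 : vectorSpan ℝ (Icc lo hi) =
      Submodule.span ℝ (range fun j : s => (Pi.single j.1 1 : Fin n → ℝ)) := by
    apply le_antisymm
    · rw [vectorSpan_def, Submodule.span_le]
      rintro _ ⟨x, hx, y, hy, rfl⟩
      change x - y ∈ _
      rw [pi_eq_sum_univ' (x - y)]
      refine Submodule.sum_mem _ fun j _ => ?_
      by_cases hj : j ∈ s
      · exact Submodule.smul_mem _ _ (Submodule.subset_span ⟨⟨j, hj⟩, rfl⟩)
      · have h2 : ¬ lo j < hi j := fun h => hj (by simp [hs, h])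
        have h3 : (x - y) j = 0 := by
          have := hx.1 j; have := hx.2 j; have := hy.1 j; have := hy.2 j
          simp only [Pi.sub_apply]
          linarith [not_lt.1 h2]
        rw [h3, zero_smul]
        exact Submodule.zero_mem _
    · rw [Submodule.span_le]
      rintro _ ⟨⟨j, hj⟩, rfl⟩
      have h2 : lo j < hi j := by simpa [hs] using hj
      have h3 : Function.update lo j (hi j) ∈ Icc lo hi := by
        constructor <;> intro k <;> by_cases hk : k = j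
        · subst hk; simpa using h2.le
        · simp [hk]
        · subst hk; simp
        · simpa [hk] using h k
      have h4 := (vectorSpan ℝ (Icc lo hi)).smul_mem (hi j - lo j)⁻¹
        (vsub_mem_vectorSpan ℝ h3 (left_mem_Icc.2 h))
      have h5 : (hi j - lo j)⁻¹ • (Function.update lo j (hi j) -ᵥ lo) =
          (Pi.single j 1 : Fin n → ℝ) := by
        funext k
        by_cases hk : k = j
        · subst hk
          simp [inv_mul_cancel₀ (sub_pos.2 h2).ne']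
        · simp [hk]
      rw [h5] at h4
      exact h4
  have h6 : LinearIndependent ℝ fun j : s => (Pi.single j.1 1 : Fin n → ℝ) :=
    (Pi.linearIndependent_single_one (Fin n) ℝ).comp _ Subtype.val_injective
  rw [h1, finrank_span_eq_card h6, Fintype.card_coe]

namespace Grid

theorem exists_gap {P : Finset ℝ} {x : ℝ} (hx : x ∉ P) (h1 : ∃ a ∈ P, a ≤ x)
    (h2 : ∃ b ∈ P, x ≤ b) : ∃ a b, Gap P a b ∧ a < x ∧ x < b := by
  obtain ⟨a, ha, hm⟩ := (P.filter (· ≤ x)).exists_max_image id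
    (h1.imp fun a h => Finset.mem_filter.2 h)
  obtain ⟨b, hb, hm'⟩ := (P.filter (x ≤ ·)).exists_min_image id
    (h2.imp fun a h => Finset.mem_filter.2 h)
  rw [Finset.mem_filter] at ha hb
  have k1 : a < x := lt_of_le_of_ne ha.2 fun h => hx (h ▸ ha.1)
  have k2 : x < b := lt_of_le_of_ne hb.2 fun h => hx (h ▸ hb.1)
  refine ⟨a, b, ⟨ha.1, hb.1, k1.trans k2, fun t ht => ?_⟩, k1, k2⟩
  rcases le_total t x with h | h
  · exact Or.inl (hm t (Finset.mem_filter.2 ⟨ht, h⟩))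
  · exact Or.inr (hm' t (Finset.mem_filter.2 ⟨ht, h⟩))

theorem exists_box {P : Fin 3 → Finset ℝ} {x : E3} (h1 : ∀ j, ∃ a ∈ P j, a ≤ x j)
    (h2 : ∀ j, ∃ b ∈ P j, x j ≤ b) : ∃ lo hi, Box P lo hi ∧ x ∈ obox lo hi := by
  have : ∀ j, ∃ a b, ((a = b ∧ a ∈ P j) ∨ Gap (P j) a b) ∧
      ((a = b ∧ x j = a) ∨ (a < x j ∧ x j < b)) := by
    intro j
    by_cases hx : x j ∈ P j
    · exact ⟨x j, x j, Or.inl ⟨rfl, hx⟩, Or.inl ⟨rfl, rfl⟩⟩
    · obtain ⟨a, b, k1, k2⟩ := exists_gap hx (h1 j) (h2 j)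
      exact ⟨a, b, Or.inr k1, Or.inr k2⟩
  choose lo hi k1 k2 using this
  exact ⟨lo, hi, k1, k2⟩

theorem Box.mem {P : Fin 3 → Finset ℝ} {lo hi : E3} (h : Box P lo hi) (j : Fin 3) :
    lo j ∈ P j ∧ hi j ∈ P j := by
  rcases h j with h | h
  · exact ⟨h.2, h.1 ▸ h.2⟩
  · exact ⟨h.1, h.2.1⟩

theorem Box.le {P : Fin 3 → Finset ℝ} {lo hi : E3} (h : Box P lo hi) : lo ≤ hi := fun j => by
  rcases h j with h | h
  · exact h.1.le
  · exact h.2.2.1.le

theorem obox_subset (lo hi : E3) : obox lo hi ⊆ Icc lo hi := fun y hy => by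
  constructor <;> intro j <;> rcases hy j with h | h
  · exact h.2.ge
  · exact h.1.le
  · exact (h.2.trans h.1).le
  · exact h.2.le

theorem sign_iff {P : Finset ℝ} {a b x y : ℝ} (h : (a = b ∧ a ∈ P) ∨ Gap P a b)
    (hx : (a = b ∧ x = a) ∨ (a < x ∧ x < b)) :
    (∀ t ∈ P, SignType.sign (y - t) = SignType.sign (x - t)) ↔
      (a = b ∧ y = a) ∨ (a < y ∧ y < b) := by
  rcases h with h | h
  · have hxa : x = a := by
      rcases hx with hx | hx
      · exact hx.2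
      · exact absurd (hx.1.trans hx.2) (by simp [h.1])
    constructor
    · intro H
      have := H a h.2
      rw [hxa, sub_self, sign_zero, sign_eq_zero_iff, sub_eq_zero] at this
      exact Or.inl ⟨h.1, this⟩
    · rintro (H | H) t _
      · rw [H.2, hxa]
      · exact absurd (H.1.trans H.2) (by simp [h.1])
  · have hx' : a < x ∧ x < b := hx.resolve_left fun k => h.2.2.1.ne k.1
    constructor
    · intro H
      have k1 := H a h.1
      have k2 := H b h.2.1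
      rw [sign_pos (sub_pos.2 hx'.1), sign_eq_one_iff, sub_pos] at k1
      rw [sign_neg (sub_neg.2 hx'.2), sign_eq_neg_one_iff, sub_neg] at k2
      exact Or.inr ⟨k1, k2⟩
    · rintro (H | H) t ht
      · exact absurd H.1 h.2.2.1.ne
      · rcases h.2.2.2 t ht with k | k
        · rw [sign_pos (sub_pos.2 (k.trans_lt H.1)), sign_pos (sub_pos.2 (k.trans_lt hx'.1))]
        · rw [sign_neg (sub_neg.2 (H.2.trans_le k)), sign_neg (sub_neg.2 (hx'.2.trans_le k))]

theorem weak_iff {P : Finset ℝ} {a b x y : ℝ} (h : (a = b ∧ a ∈ P) ∨ Gap P a b)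
    (hx : (a = b ∧ x = a) ∨ (a < x ∧ x < b)) :
    (∀ t ∈ P, (0 ≤ x - t → 0 ≤ y - t) ∧ (x - t ≤ 0 → y - t ≤ 0)) ↔ a ≤ y ∧ y ≤ b := by
  have hab : a ∈ P ∧ b ∈ P := by
    rcases h with h | h
    · exact ⟨h.2, h.1 ▸ h.2⟩
    · exact ⟨h.1, h.2.1⟩
  have hx1 : a ≤ x ∧ x ≤ b := by
    rcases hx with hx | hx
    · exact ⟨hx.2.ge, (hx.2.trans hx.1).le⟩
    · exact ⟨hx.1.le, hx.2.le⟩
  constructor
  · intro H
    exact ⟨sub_nonneg.1 ((H a hab.1).1 (sub_nonneg.2 hx1.1)),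
      sub_nonpos.1 ((H b hab.2).2 (sub_nonpos.2 hx1.2))⟩
  · intro H t ht
    rcases hx with hx | hx
    · have : y = x := by linarith [H.1, H.2, hx.1, hx.2]
      rw [this]
      exact ⟨id, id⟩
    · have hg : Gap P a b := h.resolve_left fun k => (hx.1.trans hx.2).ne k.1
      rcases hg.2.2.2 t ht with k | k
      · exact ⟨fun _ => by linarith [H.1], fun k' => by linarith [hx.1]⟩
      · exact ⟨fun k' => by linarith [hx.2], fun _ => by linarith [H.2]⟩

/-- the affine form of a plane -/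
noncomputable def pl (j : Fin 3) (t : ℝ) : E3 →ᵃ[ℝ] ℝ :=
  (LinearMap.proj j : E3 →ₗ[ℝ] ℝ).toAffineMap - AffineMap.const ℝ E3 t

@[simp] theorem pl_apply (j : Fin 3) (t : ℝ) (y : E3) : pl j t y = y j - t := rfl

theorem pl_linear_ne (j : Fin 3) (t : ℝ) : (pl j t).linear ≠ 0 := by
  intro h
  have := LinearMap.congr_fun h (Pi.single j 1)
  simp [pl] at this

open Classical in
/-- the forms of all planes -/
noncomputable def forms (P : Fin 3 → Finset ℝ) : Finset (E3 →ᵃ[ℝ] ℝ) :=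
  Finset.univ.biUnion fun j => (P j).image (pl j) ∪ (P j).image fun t => -pl j t

theorem forall_forms {P : Fin 3 → Finset ℝ} {Q : (E3 →ᵃ[ℝ] ℝ) → Prop} :
    (∀ ℓ ∈ forms P, Q ℓ) ↔ ∀ j, ∀ t ∈ P j, Q (pl j t) ∧ Q (-pl j t) := by
  classical
  simp only [forms, Finset.mem_biUnion, Finset.mem_univ, true_and, Finset.mem_union,
    Finset.mem_image]
  constructor
  · exact fun H j t ht => ⟨H _ ⟨j, Or.inl ⟨t, ht, rfl⟩⟩, H _ ⟨j, Or.inr ⟨t, ht, rfl⟩⟩⟩
  · rintro H _ ⟨j, ⟨t, ht, rfl⟩ | ⟨t, ht, rfl⟩⟩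
    · exact (H j t ht).1
    · exact (H j t ht).2

open Classical in
/-- the forms of the facets of a box -/
noncomputable def facets (lo hi : E3) : Finset (E3 →ᵃ[ℝ] ℝ) :=
  (Finset.univ.image fun j => pl j (hi j)) ∪ Finset.univ.image fun j => -pl j (lo j)

theorem forall_facets {lo hi : E3} {Q : (E3 →ᵃ[ℝ] ℝ) → Prop} :
    (∀ ℓ ∈ facets lo hi, Q ℓ) ↔ (∀ j, Q (-pl j (lo j))) ∧ ∀ j, Q (pl j (hi j)) := by
  classical
  simp only [facets, Finset.mem_union, Finset.mem_image, Finset.mem_univ, true_and]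
  constructor
  · exact fun H => ⟨fun j => H _ (Or.inr ⟨j, rfl⟩), fun j => H _ (Or.inl ⟨j, rfl⟩)⟩
  · rintro H _ (⟨j, rfl⟩ | ⟨j, rfl⟩)
    · exact H.2 j
    · exact H.1 j

theorem exists_boxCx (harr : ARR) {Λ : Set E3} (P : ℕ → Fin 3 → Finset ℝ) (W : ℕ → Set E3)
    (hP : ∀ n j, P n j ⊆ P (n + 1) j) (hW : ∀ n, W n ⊆ Λ)
    (hbox : ∀ y ∈ Λ, ∃ n lo hi, Box (P n) lo hi ∧ y ∈ Icc lo hi ∧ Icc lo hi ⊆ W n)
    (hov : ∀ n n', (W n ∩ W n').Nonempty → n' ≤ n + 2) (hlf : LFIn W Λ) :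
    ∃ (K : RCx E3) (lev : K.ι → ℕ) (lo hi : K.ι → E3), K.Cvx ∧ K.carrier = Λ ∧
      BoxCx K (fun n => P (n + 2)) W lev lo hi := by
  have hmono : ∀ j, Monotone fun n => P n j := fun j => monotone_nat_of_le_succ fun n => hP n j
  let μ := {m : ℕ × E3 × E3 // Box (P m.1) m.2.1 m.2.2 ∧ Icc m.2.1 m.2.2 ⊆ W m.1}
  let C : μ → Set E3 := fun m => Icc m.1.2.1 m.1.2.2
  have hU : ⋃ m, C m = Λ := by
    refine Subset.antisymm (iUnion_subset fun m => m.2.2.trans (hW _)) fun y hy => ?_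
    obtain ⟨n, lo, hi, h1, h2, h3⟩ := hbox y hy
    exact mem_iUnion.2 ⟨⟨(n, lo, hi), h1, h3⟩, h2⟩
  obtain ⟨K, hK, hcar, hcell⟩ := harr C (fun m => facets m.1.2.1 m.1.2.2)
    (fun m => forms (P (m.1.1 + 2)))
    (fun m => by
      ext y
      simp only [C, mem_ofPred_eq, forall_facets, AffineMap.coe_neg, Pi.neg_apply, pl_apply,
        neg_sub, sub_nonpos, mem_Icc, Pi.le_def])
    (fun m => isCompact_Icc)
    (by
      rw [hU]
      intro x hx
      obtain ⟨U, hUx, hfin⟩ := hlf x hx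
      refine ⟨U, hUx, ?_⟩
      have h1 : (⋃ n ∈ {n | (W n ∩ U).Nonempty}, ({n} : Set ℕ) ×ˢ
          ((univ.pi fun j => (P n j : Set ℝ)) ×ˢ univ.pi fun j => (P n j : Set ℝ))).Finite :=
        hfin.biUnion fun n _ => (finite_singleton n).prod
          ((Finite.pi fun j => (P n j).finite_toSet).prod (Finite.pi fun j => (P n j).finite_toSet))
      refine (h1.preimage (f := (Subtype.val : μ → _)) Subtype.val_injective.injOn).subset ?_
      rintro m ⟨y, hy, hyU⟩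
      exact mem_iUnion₂.2 ⟨m.1.1, ⟨y, m.2.2 hy, hyU⟩, rfl, fun j _ => (m.2.1.mem j).1,
        fun j _ => (m.2.1.mem j).2⟩)
    (fun m m' h => by
      obtain ⟨y, hy, hy'⟩ := h
      have h1 := hov _ _ ⟨y, m.2.2 hy, m'.2.2 hy'⟩
      have h2 := forall_forms.1 fun ℓ (h : ℓ ∈ forms (P (m.1.1 + 2))) => h
      exact fun ℓ hℓ => forall_facets.2 ⟨fun j => (h2 j _ (hmono j h1 (m'.2.1.mem j).1)).2,
        fun j => (h2 j _ (hmono j h1 (m'.2.1.mem j).2)).1⟩ ℓ hℓ)
  have key : ∀ i : K.ι, ∃ (n : ℕ) (lo hi : E3), K.cell i = Icc lo hi ∧ K.ocell i = obox lo hi ∧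
      Box (P (n + 2)) lo hi ∧ K.cell i ⊆ W n := by
    intro i
    obtain ⟨x, hx⟩ := K.ocell_nonempty i
    have hxc : x ∈ ⋃ m, C m := hcar ▸ K.cell_subset_carrier i (K.ocell_subset i hx)
    have hfin : ((fun m : μ => m.1.1) '' {m | x ∈ C m}).Finite := by
      refine (hlf.finite_mem (hU ▸ hxc)).subset ?_
      rintro _ ⟨m, hm, rfl⟩
      exact m.2.2 hm
    obtain ⟨m₀, hm₀, hmax⟩ := Finite.exists_maximalFor' _ _ hfin (mem_iUnion.1 hxc)
    have hle : ∀ m, x ∈ C m → m.1.1 ≤ m₀.1.1 := fun m hm =>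
      (le_total _ _).elim id fun h => hmax hm h
    obtain ⟨lo, hi, hb, hxb⟩ := exists_box (P := P (m₀.1.1 + 2)) (x := x)
      (fun j => ⟨_, hmono j (Nat.le_add_right _ 2) (m₀.2.1.mem j).1, hm₀.1 j⟩)
      (fun j => ⟨_, hmono j (Nat.le_add_right _ 2) (m₀.2.1.mem j).2, hm₀.2 j⟩)
    have red : ∀ Q : (E3 →ᵃ[ℝ] ℝ) → Prop, (∀ ℓ, Q ℓ → Q (-ℓ)) →
        ((∀ m, x ∈ C m → ∀ ℓ ∈ forms (P (m.1.1 + 2)), Q ℓ) ↔
          ∀ j, ∀ t ∈ P (m₀.1.1 + 2) j, Q (pl j t)) := fun Q hQ =>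
      ⟨fun H j t ht => (forall_forms.1 (H m₀ hm₀) j t ht).1, fun H m hm => forall_forms.2
        fun j t ht => have := H j t (hmono j (Nat.add_le_add_right (hle m hm) 2) ht)
          ⟨this, hQ _ this⟩⟩
    obtain ⟨h1, h2⟩ := hcell i x hx
    have h3 : K.cell i = Icc lo hi := by
      rw [h2]
      ext y
      rw [mem_ofPred_eq, red (fun ℓ => (0 ≤ ℓ x → 0 ≤ ℓ y) ∧ (ℓ x ≤ 0 → ℓ y ≤ 0))
        (fun ℓ h => by simpa using h.symm)]
      simp only [pl_apply, weak_iff (hb _) (hxb _)]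
      simp only [mem_Icc, Pi.le_def, forall_and]
    refine ⟨m₀.1.1, lo, hi, h3, ?_, hb, ?_⟩
    · rw [h1]
      ext y
      rw [mem_ofPred_eq, red (fun ℓ => SignType.sign (ℓ y) = SignType.sign (ℓ x))
        (fun ℓ h => by simpa [Left.sign_neg] using h)]
      simp only [pl_apply, sign_iff (hb _) (hxb _), obox, mem_ofPred_eq]
    · refine Subset.trans (fun y hy => ?_) m₀.2.2
      rw [h3] at hy
      have k := fun j => (weak_iff (y := y j) (hb j) (hxb j)).2 ⟨hy.1 j, hy.2 j⟩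
      exact ⟨fun j => sub_nonneg.1 ((k j _ (hmono j (Nat.le_add_right _ 2)
          (m₀.2.1.mem j).1)).1 (sub_nonneg.2 (hm₀.1 j))),
        fun j => sub_nonpos.1 ((k j _ (hmono j (Nat.le_add_right _ 2)
          (m₀.2.1.mem j).2)).2 (sub_nonpos.2 (hm₀.2 j)))⟩
  choose lev lo hi k1 k2 k3 k4 using key
  refine ⟨K, lev, lo, hi, hK, hcar.trans hU, k1, k2, k3, k4, fun i => ?_⟩
  rw [(hK i).2.2, k1, finrank_vectorSpan_Icc (k3 i).le]

end Grid

end P073
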