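import Vale.Agent.P073Z.Sk2

/-!
# The target grid: definitions
-/

open Set Metric Topology Filter MeasureTheory
open scoped ENNReal NNReal

namespace P073

/-- the Banach indicatrix -/
noncomputable def indic (φ : ℝ → ℝ) (A : Set ℝ) (t : ℝ) : ℝ≥0∞ :=
  ({s ∈ A | φ s = t}.encard : ℝ≥0∞)

namespace Grid

/-- `a < b` are consecutive members of `P` -/
def Gap (P : Finset ℝ) (a b : ℝ) : Prop := a ∈ P ∧ b ∈ P ∧ a < b ∧ ∀ t ∈ P, t ≤ a ∨ b ≤ t

/-- the closed cells of the grid of planes `P` -/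
def Box (P : Fin 3 → Finset ℝ) (lo hi : E3) : Prop :=
  ∀ j, (lo j = hi j ∧ lo j ∈ P j) ∨ Gap (P j) (lo j) (hi j)

/-- the open cells -/
def obox (lo hi : E3) : Set E3 :=
  {y | ∀ j, (lo j = hi j ∧ y j = lo j) ∨ (lo j < y j ∧ y j < hi j)}

/-- the cells of `K` are cells of the grids `P n` inside `W n` -/
structure BoxCx (K : RCx E3) (P : ℕ → Fin 3 → Finset ℝ) (W : ℕ → Set E3) (lev : K.ι → ℕ)
    (lo hi : K.ι → E3) : Prop where
  cell : ∀ i, K.cell i = Icc (lo i) (hi i)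
  ocell : ∀ i, K.ocell i = obox (lo i) (hi i)
  box : ∀ i, Box (P (lev i)) (lo i) (hi i)
  sub : ∀ i, K.cell i ⊆ W (lev i)
  dim : ∀ i, K.dim i = (Finset.univ.filter fun j => lo i j < hi i j).card

end Grid

end P073
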