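import Vale.Agent.P073Z.GRID.Cx
import Vale.Agent.P073Z.Indic

/-!
# The target grid: good levels, generic position, prescribed planes
-/

open Set Metric Topology Filter MeasureTheory
open scoped ENNReal NNReal

namespace P073

namespace Grid

theorem exists_basis_cover {X O : Set E3} (hX : IsCompact X) (hO : IsOpen O) (h : X ⊆ O) :
    ∃ s : Set (Set E3), s.Finite ∧ s ⊆ TopologicalSpace.countableBasis E3 ∧ X ⊆ ⋃₀ s ∧
      ⋃₀ s ⊆ O := by
  obtain ⟨s, h1, h2, h3⟩ := hX.elim_finite_subcover_image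
    (b := {v ∈ TopologicalSpace.countableBasis E3 | v ⊆ O}) (c := id)
    (fun v hv => TopologicalSpace.isOpen_of_mem_countableBasis hv.1) (fun x hx => by
      obtain ⟨v, k1, k2, k3⟩ :=
        (TopologicalSpace.isBasis_countableBasis E3).exists_subset_of_mem_open (h hx) hO
      exact mem_iUnion₂.2 ⟨v, ⟨k1, k3⟩, k2⟩)
  refine ⟨s, h2, fun v hv => (h1 hv).1, ?_, sUnion_subset fun v hv => (h1 hv).2⟩
  rwa [sUnion_eq_biUnion]

/-- the good levels -/
def LevSet {ι : Type} (f : E3 → E3) (a b : ι → E3) (j : Fin 3) : Set ℝ :=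
  {t | ∀ s ∈ {s : Set (Set E3) | s.Finite ∧ s ⊆ TopologicalSpace.countableBasis E3},
    {e | (f '' segment ℝ (a e) (b e) ∩ ⋃₀ s).Nonempty}.Finite → ∀ η > (0 : ℝ),
      volume {c ∈ Ioo (-η) η | ∀ e, cnt f (a e) (b e) (⋃₀ s ∩ {y | y j = t + c}) ≤
        cnt f (a e) (b e) (⋃₀ s ∩ {y | y j = t})} ≠ 0}

theorem ae_levSet {ι : Type} (f : E3 → E3) (a b : ι → E3) (j : Fin 3) :
    ∀ᵐ t : ℝ, t ∈ LevSet f a b j := by
  refine (ae_ball_iff (countable_ofPred_finite_subset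
    (TopologicalSpace.countable_countableBasis E3))).2 fun s _ => ?_
  by_cases hF : {e | (f '' segment ℝ (a e) (b e) ∩ ⋃₀ s).Nonempty}.Finite
  swap
  · exact Eventually.of_forall fun t h => absurd h hF
  have := hF.to_subtype
  filter_upwards [ae_acc fun (c : ℝ) (e : {e | (f '' segment ℝ (a e) (b e) ∩ ⋃₀ s).Nonempty}) =>
    {x ∈ segment ℝ (a e.1) (b e.1) | f x ∈ ⋃₀ s ∩ {y | y j = c}}.encard] with t ht _ η hη h0
  refine ht η hη (measure_mono_null (fun c hc => ?_) h0)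
  refine ⟨hc.1, fun e => ?_⟩
  by_cases he : (f '' segment ℝ (a e) (b e) ∩ ⋃₀ s).Nonempty
  · have := congrFun hc.2 ⟨e, he⟩
    unfold cnt
    exact le_of_eq (congrArg _ this)
  · have h1 : {x ∈ segment ℝ (a e) (b e) | f x ∈ ⋃₀ s ∩ {y | y j = t + c}} = ∅ :=
      eq_empty_of_forall_notMem fun x hx => he ⟨f x, mem_image_of_mem f hx.1, hx.2.1⟩
    unfold cnt
    rw [h1]
    simp

variable {K : RCx E3} {P : ℕ → Fin 3 → Finset ℝ} {W : ℕ → Set E3} {lev : K.ι → ℕ}
  {lo hi : K.ι → E3}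

theorem BoxCx.deg (h : BoxCx K P W lev lo hi) {i : K.ι} {j : Fin 3} (hj : ¬ lo i j < hi i j) :
    lo i j = hi i j ∧ lo i j ∈ P (lev i) j :=
  (h.box i j).resolve_right fun k => hj k.2.2.1

theorem BoxCx.card_deg (h : BoxCx K P W lev lo hi) (i : K.ι) :
    K.dim i + (Finset.univ.filter fun j => ¬ lo i j < hi i j).card = 3 := by
  rw [h.dim, Finset.card_filter_add_card_filter_not]
  simp

theorem BoxCx.notMem_skel (h : BoxCx K P W lev lo hi) {y : E3}
    (hy : ∀ n i j, i ≠ j → y i ∈ P n i → y j ∉ P n j) : y ∉ K.skel 1 := by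
  intro hs
  obtain ⟨i, hi1, hyi⟩ := K.mem_skel.1 hs
  have h1 := h.card_deg i
  obtain ⟨j, hj, k, hk, hjk⟩ := Finset.one_lt_card.1
    (show 1 < (Finset.univ.filter fun j => ¬ lo i j < hi i j).card by omega)
  rw [h.cell] at hyi
  have key : ∀ j, ¬ lo i j < hi i j → y j ∈ P (lev i) j := fun j hj => by
    have h2 := h.deg hj
    rw [le_antisymm ((hyi.2 j).trans h2.1.ge) (hyi.1 j)]
    exact h2.2
  exact hy _ j k hjk (key j (Finset.mem_filter.1 hj).2) (key k (Finset.mem_filter.1 hk).2)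

theorem BoxCx.exists_deg (h : BoxCx K P W lev lo hi) {S : K.ι} (hS : K.dim S = 2) :
    ∃ j, lo S j = hi S j ∧ lo S j ∈ P (lev S) j ∧ ∀ k, k ≠ j → lo S k < hi S k := by
  have h1 := h.card_deg S
  obtain ⟨j, hj⟩ := Finset.card_eq_one.1
    (show (Finset.univ.filter fun j => ¬ lo S j < hi S j).card = 1 by omega)
  have h2 : ∀ k, ¬ lo S k < hi S k ↔ k = j := fun k => by
    rw [← Finset.mem_singleton, ← hj, Finset.mem_filter]
    simp
  exact ⟨j, (h.deg ((h2 j).2 rfl)).1, (h.deg ((h2 j).2 rfl)).2,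
    fun k hk => by_contra fun h3 => hk ((h2 k).1 h3)⟩

theorem BoxCx.goodLev (h : BoxCx K P W lev lo hi) {ι : Type} {f : E3 → E3} {a b : ι → E3}
    (hW : ∀ n, IsOpen (W n))
    (hfin : ∀ n, {e | (f '' segment ℝ (a e) (b e) ∩ W n).Nonempty}.Finite)
    (hT : ∀ n j, ∀ t ∈ P n j, t ∈ LevSet f a b j) : GoodLev K f a b := by
  intro S hS
  obtain ⟨j, h1, h2, h3⟩ := h.exists_deg hS
  refine ⟨pl j (lo S j), pl_linear_ne _ _, fun y hy => ?_, fun X hX hXS => ?_⟩
  · rw [h.cell] at hy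
    rw [pl_apply, le_antisymm ((hy.2 j).trans h1.ge) (hy.1 j), sub_self]
  have hO : IsOpen (W (lev S) ∩ ⋂ k : {k // k ≠ j}, {y : E3 | lo S k < y k ∧ y k < hi S k}) :=
    (hW _).inter (isOpen_iInter_of_finite fun k =>
      (isOpen_lt continuous_const (continuous_apply _)).inter
        (isOpen_lt (continuous_apply _) continuous_const))
  obtain ⟨s, k1, k2, k3, k4⟩ := exists_basis_cover hX hO fun x hx =>
    ⟨h.sub S (K.ocell_subset S (hXS hx)), mem_iInter.2 fun k => by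
      have := hXS hx
      rw [h.ocell] at this
      exact (this k).resolve_left fun k5 => (h3 k k.2).ne k5.1⟩
  refine ⟨⋃₀ s, isOpen_sUnion fun v hv => TopologicalSpace.isOpen_of_mem_countableBasis (k2 hv),
    k3, fun η hη h0 => ?_⟩
  refine hT _ j _ h2 s ⟨k1, k2⟩ ((hfin (lev S)).subset fun e he =>
    he.mono (inter_subset_inter_right _ (k4.trans inter_subset_left))) η hη
    (measure_mono_null (fun c hc => ?_) h0)
  refine ⟨hc.1, fun e => ?_⟩
  have e1 : {y : E3 | pl j (lo S j) y = c} = {y | y j = lo S j + c} := by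
    ext y
    simp only [pl_apply, mem_ofPred_eq, sub_eq_iff_eq_add']
  rw [e1]
  refine (hc.2 e).trans (cnt_mono _ _ _ fun y hy => ?_)
  rw [h.cell]
  have k5 := mem_iInter.1 (k4 hy.1).2
  constructor <;> intro k <;> by_cases hk : k = j
  · subst hk; exact hy.2.ge
  · exact (k5 ⟨k, hk⟩).1.le
  · subst hk; exact (hy.2.trans h1).le
  · exact (k5 ⟨k, hk⟩).2.le

theorem BoxCx.exists_face (h : BoxCx K P W lev lo hi) (hK : IsOpen K.carrier) {j : Fin 3} {t : ℝ}
    (ht : ∀ n, t ∈ P n j) {y : E3} (hy : y ∈ K.carrier) (hyt : y j = t) :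
    ∃ S, K.dim S = 2 ∧ y ∈ K.cell S ∧ ∀ y' ∈ K.cell S, y' j = t := by
  obtain ⟨ε, hε, hb⟩ := Metric.eventually_nhds_iff.1
    ((K.eventually_star hy).and (hK.mem_nhds hy))
  have h1 : ∀ k, ∃ z, z ∉ ⋃ n, (P n k : Set ℝ) ∧ dist (y k) z < ε := fun k =>
    (Countable.dense_compl ℝ (countable_iUnion fun n => (P n k).countable_toSet)).exists_dist_lt
      (y k) hε
  choose z hz hzd using h1
  have h2 : dist (Function.update z j t) y < ε := by
    rw [dist_pi_lt_iff hε]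
    intro k
    by_cases hk : k = j
    · subst hk
      simpa [hyt] using hε
    · rw [Function.update_of_ne hk, dist_comm]
      exact hzd k
  obtain ⟨h3, h4⟩ := hb h2
  obtain ⟨S, hS⟩ := K.exists_ocell h4
  have h5 := h3 S (K.ocell_subset S hS)
  rw [h.ocell] at hS
  have h6 : lo S j = hi S j ∧ t = lo S j := by
    rcases hS j with k | k
    · simpa using k
    · rw [Function.update_self] at k
      have hg := (h.box S j).resolve_left fun k' => (k.1.trans k.2).ne k'.1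
      rcases hg.2.2.2 t (ht _) with k' | k'
      · exact absurd k.1 (not_lt.2 k')
      · exact absurd k.2 (not_lt.2 k')
  have h7 : ∀ k, k ≠ j → lo S k < hi S k := fun k hk => by
    rcases hS k with k1 | k1
    · rw [Function.update_of_ne hk] at k1
      exact absurd (mem_iUnion.2 ⟨lev S, k1.2 ▸ ((h.box S).mem k).1⟩) (hz k)
    · exact k1.1.trans k1.2
  refine ⟨S, ?_, h5, fun y' hy' => ?_⟩
  · have h8 : (Finset.univ.filter fun k => ¬ lo S k < hi S k) = {j} := by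
      ext k
      simp only [Finset.mem_filter, Finset.mem_univ, true_and, Finset.mem_singleton]
      exact ⟨fun k1 => by_contra fun k2 => k1 (h7 k k2), fun k1 => k1 ▸ h6.1.not_lt⟩
    have := h.card_deg S
    rw [h8, Finset.card_singleton] at this
    omega
  · rw [h.cell] at hy'
    rw [h6.2]
    exact le_antisymm ((hy'.2 j).trans h6.1.ge) (hy'.1 j)

theorem Box.side_le {Q : Fin 3 → Finset ℝ} {l u y : E3} (hb : Box Q l u) (hy : y ∈ Icc l u)
    {d : ℝ} (hd : 0 < d) (j : Fin 3)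
    (hm : (∃ t ∈ Q j, y j - d ≤ t ∧ t < y j) ∧ ∃ t ∈ Q j, y j < t ∧ t ≤ y j + d) :
    u j - l j ≤ 2 * d := by
  rcases hb j with k | k
  · rw [k.1, sub_self]
    positivity
  · obtain ⟨⟨t, ht, k1, k2⟩, t', ht', k3, k4⟩ := hm
    have h1 := (k.2.2.2 t ht).resolve_right (not_le.2 (k2.trans_le (hy.2 j)))
    have h2 := (k.2.2.2 t' ht').resolve_left (not_le.2 ((hy.1 j).trans_lt k3))
    linarith

theorem dist_le_of_mem_Icc {l u x y : E3} (hx : x ∈ Icc l u) (hy : y ∈ Icc l u) {d : ℝ}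
    (hd : 0 ≤ d) (h : ∀ j, u j - l j ≤ d) : dist x y ≤ d := by
  rw [dist_pi_le_iff hd]
  intro j
  rw [Real.dist_eq, abs_le]
  constructor <;> linarith [hx.1 j, hx.2 j, hy.1 j, hy.2 j, h j]

theorem exists_rings {Λ : Set E3} (hΛ : IsOpen Λ) (hb : Bornology.IsBounded Λ) :
    ∃ A W C : ℕ → Set E3, (∀ y ∈ Λ, ∃ n, y ∈ A n) ∧
      (∀ n, IsCompact (A n) ∧ A n ⊆ W n ∧ IsOpen (W n) ∧ W n ⊆ C n ∧ IsCompact (C n) ∧
        C n ⊆ Λ) ∧ ∀ n n', (W n ∩ W n').Nonempty → n' ≤ n + 2 := by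
  have hne : Λᶜ.Nonempty := by
    rw [nonempty_compl]
    rintro rfl
    exact NormedSpace.unbounded_univ ℝ E3 hb
  set D : E3 → ℝ := fun y => infDist y Λᶜ with hD
  have hc : Continuous D := continuous_infDist_pt _
  have h0 : ∀ y, 0 ≤ D y := fun y => infDist_nonneg
  have hpos : ∀ y, y ∈ Λ ↔ 0 < D y := fun y => by
    rw [← hΛ.isClosed_compl.notMem_iff_infDist_pos hne]
    simp
  have hC : ∀ n : ℕ, {y | 1 ≤ ((n : ℝ) + 2) * D y} ⊆ Λ := fun n y hy => by
    rw [hpos]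
    refine lt_of_le_of_ne (h0 y) fun h => ?_
    rw [mem_ofPred_eq, ← h, mul_zero] at hy
    exact absurd hy (by norm_num)
  have hCc : ∀ n : ℕ, IsCompact {y | 1 ≤ ((n : ℝ) + 2) * D y} := fun n =>
    isCompact_of_isClosed_isBounded (isClosed_le continuous_const (by fun_prop))
      (hb.subset (hC n))
  have hAW : ∀ n : ℕ, {y | 1 ≤ ((n : ℝ) + 1) * D y ∧ (n : ℝ) * D y ≤ 1} ⊆
      {y | 1 < ((n : ℝ) + 2) * D y ∧ ((n : ℝ) - 1) * D y < 1} := fun n y hy => by
    have : 0 < D y := (hpos y).1 (hC n (by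
      rw [mem_ofPred_eq]
      nlinarith [hy.1, h0 y]))
    constructor <;> nlinarith [hy.1, hy.2]
  refine ⟨fun n => {y | 1 ≤ ((n : ℝ) + 1) * D y ∧ (n : ℝ) * D y ≤ 1},
    fun n => {y | 1 < ((n : ℝ) + 2) * D y ∧ ((n : ℝ) - 1) * D y < 1},
    fun n => {y | 1 ≤ ((n : ℝ) + 2) * D y}, fun y hy => ?_,
    fun n => ⟨?_, hAW n, ?_, fun y hy => hy.1.le, hCc n, hC n⟩, ?_⟩
  · have h1 := (hpos y).1 hy
    refine ⟨⌊(D y)⁻¹⌋₊, ?_, ?_⟩
    · have := (Nat.lt_floor_add_one (D y)⁻¹).le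
      rwa [inv_eq_one_div, div_le_iff₀ h1, ← inv_eq_one_div] at this
    · have := Nat.floor_le (inv_pos.2 h1).le
      rwa [← le_div_iff₀ h1, ← inv_eq_one_div]
  · have k1 : IsClosed {y | 1 ≤ ((n : ℝ) + 1) * D y} := isClosed_le continuous_const (by fun_prop)
    have k2 : IsClosed {y | (n : ℝ) * D y ≤ 1} := isClosed_le (by fun_prop) continuous_const
    exact (hCc n).of_isClosed_subset (k1.inter k2) fun y hy => (hAW n hy).1.le
  · have k1 : IsOpen {y | 1 < ((n : ℝ) + 2) * D y} := isOpen_lt continuous_const (by fun_prop)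
    have k2 : IsOpen {y | ((n : ℝ) - 1) * D y < 1} := isOpen_lt (by fun_prop) continuous_const
    exact k1.inter k2
  · rintro n n' ⟨y, h1, h2⟩
    have h3 : ((n' : ℝ) - 1) * D y < ((n : ℝ) + 2) * D y := h2.2.trans h1.1
    have h4 := lt_of_mul_lt_mul_right h3 (h0 y)
    have h5 : (n' : ℝ) < n + 3 := by linarith
    have h6 : n' < n + 3 := by exact_mod_cast h5
    omega

theorem encard_le_three {S : Set ℕ} (h : ∀ n ∈ S, ∀ n' ∈ S, n' ≤ n + 2) :
    S.encard ≤ (3 : ℕ) := by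
  rcases S.eq_empty_or_nonempty with rfl | hne
  · simp
  have h1 : S ⊆ (Finset.Icc (sInf S) (sInf S + 2) : Finset ℕ) := fun n hn => by
    simp only [Finset.coe_Icc, mem_Icc]
    exact ⟨Nat.sInf_le hn, h _ (Nat.sInf_mem hne) n hn⟩
  refine (encard_le_encard h1).trans ?_
  rw [encard_coe_eq_coe_finsetCard, Nat.card_Icc]
  exact le_of_eq (congrArg _ (by omega))

end Grid

end P073
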