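import Mathlib

/-!
# Riemann sums of integrable functions at well chosen points
-/

open Set MeasureTheory
open scoped ENNReal

namespace P073

namespace Riem

theorem slab_disjoint {h : ℝ} (hh : 0 < h) :
    Pairwise (Function.onFun Disjoint fun j : ℤ => Ioo ((j : ℝ) * h) ((j + 1) * h)) := by
  have key : ∀ i j : ℤ, i < j →
      Disjoint (Ioo ((i : ℝ) * h) ((i + 1) * h)) (Ioo ((j : ℝ) * h) ((j + 1) * h)) := by
    intro i j hij
    refine disjoint_left.2 fun x hx hx' => ?_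
    have h1 : ((i : ℝ) + 1) ≤ j := by exact_mod_cast hij
    have := mul_le_mul_of_nonneg_right h1 hh.le
    linarith [hx.2, hx'.1]
  intro i j hij
  rcases lt_or_gt_of_ne hij with h1 | h1
  · exact key i j h1
  · exact (key j i h1).symm

theorem sum_slab_le {h : ℝ} (hh : 0 < h) (J : Finset ℤ) (F : ℝ → ℝ≥0∞) :
    ∑ j ∈ J, ∫⁻ x in Ioo ((j : ℝ) * h) ((j + 1) * h), F x ≤ ∫⁻ x, F x := by
  rw [← lintegral_biUnion_finset (fun i _ j _ hij => slab_disjoint hh hij)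
    (fun _ _ => measurableSet_Ioo)]
  exact setLIntegral_le_lintegral _ _

theorem exists_point {h : ℝ} (hh : 0 < h) (j : ℤ) {Φ : ℝ → ℝ≥0∞} (hΦ : Measurable Φ) {Z : Set ℝ}
    (hZ : volume Z = 0) : ∃ t ∈ Ioo ((j : ℝ) * h) ((j + 1) * h), t ∉ Z ∧
      ENNReal.ofReal h * Φ t ≤ ∫⁻ x in Ioo ((j : ℝ) * h) ((j + 1) * h), Φ x := by
  have hv : volume (Ioo ((j : ℝ) * h) ((j + 1) * h)) = ENNReal.ofReal h := by
    rw [Real.volume_Ioo]; congr 1; ring
  have h0 : ENNReal.ofReal h ≠ 0 := by simpa using hh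
  have h1 := measure_le_setLAverage_pos (μ := volume) (f := Φ) (hv ▸ h0) (hv ▸ ENNReal.ofReal_ne_top)
    hΦ.aemeasurable
  rw [← measure_sdiff_null hZ] at h1
  obtain ⟨t, ⟨ht, ht'⟩, htZ⟩ := nonempty_of_measure_ne_zero h1.ne'
  refine ⟨t, ht, htZ, ?_⟩
  rw [setLAverage_eq, hv] at ht'
  calc ENNReal.ofReal h * Φ t
      ≤ ENNReal.ofReal h * ((∫⁻ x in Ioo ((j : ℝ) * h) ((j + 1) * h), Φ x) / ENNReal.ofReal h) := by
        gcongr
    _ ≤ _ := ENNReal.mul_div_le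

end Riem

open Riem in
/-- For finitely many integrable functions and a fine mesh there are points in the slabs, off a
given null set, whose Riemann sums are almost bounded by the integrals. -/
theorem riemann {ι : Type} (s : Finset ι) (N : ι → ℝ → ℝ≥0∞) (hN : ∀ e ∈ s, Measurable (N e))
    (hfin : ∀ e ∈ s, ∫⁻ t, N e t ≠ ⊤) (L : ℝ) {ε : ℝ≥0∞} (hε : ε ≠ 0) :
    ∃ h₀ : ℝ, 0 < h₀ ∧ ∀ h : ℝ, 0 < h → h ≤ h₀ → ∀ Z : Set ℝ, volume Z = 0 →
      ∃ t : ℤ → ℝ, (∀ j : ℤ, t j ∈ Ioo ((j : ℝ) * h) ((j + 1) * h) ∧ t j ∉ Z) ∧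
        ∀ e ∈ s, ∀ J : Finset ℤ, (J.card : ℝ) * h ≤ L →
          ∑ j ∈ J, ENNReal.ofReal h * N e (t j) ≤ (∫⁻ x, N e x) + ε := by
  classical
  -- the constants
  obtain ⟨a, ha0, ha⟩ : ∃ a : ℝ≥0∞, a ≠ 0 ∧ (2 * s.card + 1 : ℝ≥0∞) * a ≤ ε := by
    have hne : (2 * s.card + 1 : ℝ≥0∞) ≠ ⊤ := by finiteness
    exact ⟨ε / (2 * s.card + 1), ENNReal.div_ne_zero.2 ⟨hε, hne⟩, ENNReal.mul_div_le⟩
  obtain ⟨b, hb0, hb⟩ : ∃ b : ℝ, 0 < b ∧ ENNReal.ofReal L * ENNReal.ofReal b ≤ a := by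
    have h1 : a / (ENNReal.ofReal L + 1) ≠ 0 := ENNReal.div_ne_zero.2 ⟨ha0, by finiteness⟩
    obtain ⟨r, hr0, hr⟩ := ENNReal.lt_iff_exists_nnreal_btwn.1 (pos_iff_ne_zero.2 h1)
    refine ⟨r, by exact_mod_cast hr0, ?_⟩
    rw [ENNReal.ofReal_coe_nnreal]
    calc ENNReal.ofReal L * (r : ℝ≥0∞)
        ≤ (ENNReal.ofReal L + 1) * (a / (ENNReal.ofReal L + 1)) := by
          gcongr
          exact le_self_add
      _ ≤ a := ENNReal.mul_div_le
  have hg : ∀ e, ∃ (g : ℝ → ℝ) (δ : ℝ), 0 < δ ∧ (e ∈ s → Continuous g ∧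
      ∫⁻ x, ‖(N e x).toReal - g x‖ₑ ≤ a ∧ ∀ x y, dist x y < δ → dist (g x) (g y) < b) := by
    intro e
    by_cases he : e ∈ s
    · obtain ⟨g, h1, h2, h3, -⟩ := (integrable_toReal_of_lintegral_ne_top (hN e he).aemeasurable
        (hfin e he)).exists_hasCompactSupport_lintegral_sub_le ha0
      obtain ⟨δ, hδ, h4⟩ := Metric.uniformContinuous_iff.1 (h1.uniformContinuous_of_continuous h3) b hb0
      exact ⟨g, δ, hδ, fun _ => ⟨h3, h2, fun x y hxy => h4 hxy⟩⟩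
    · exact ⟨0, 1, one_pos, fun h => absurd h he⟩
  choose g δ hδ hg using hg
  obtain ⟨h₀, hh₀, hh₀δ⟩ : ∃ h₀ : ℝ, 0 < h₀ ∧ ∀ e ∈ s, h₀ ≤ δ e := by
    by_cases hs : s.Nonempty
    · obtain ⟨e, -, he⟩ := s.exists_min_image δ hs
      exact ⟨δ e, hδ e, he⟩
    · exact ⟨1, one_pos, fun e he => absurd ⟨e, he⟩ hs⟩
  refine ⟨h₀, hh₀, fun h hh hle Z hZ => ?_⟩
  set φ : ι → ℝ → ℝ≥0∞ := fun e x => ‖(N e x).toReal - g e x‖ₑ with hφ
  have hφm : ∀ e ∈ s, Measurable (φ e) := fun e he =>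
    ((hN e he).ennreal_toReal.sub (hg e he).1.measurable).enorm
  set Φ : ℝ → ℝ≥0∞ := fun x => ∑ e ∈ s, φ e x with hΦ
  have hΦm : Measurable Φ := Finset.measurable_sum s hφm
  have hΦi : ∫⁻ x, Φ x ≤ s.card * a := by
    simp only [hΦ]
    rw [lintegral_finsetSum s hφm]
    calc ∑ e ∈ s, ∫⁻ x, φ e x ≤ ∑ e ∈ s, a := Finset.sum_le_sum fun e he => (hg e he).2.1
      _ = s.card * a := by simp
  have hZ' : volume (Z ∪ ⋃ e ∈ s, {x | N e x = ⊤}) = 0 := by
    refine measure_union_null hZ ((measure_biUnion_null_iff s.countable_toSet).2 fun e he => ?_)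
    exact measure_eq_top_of_lintegral_ne_top (hN e he).aemeasurable (hfin e he)
  choose t ht htZ htΦ using fun j => exists_point hh j hΦm hZ'
  refine ⟨t, fun j => ⟨ht j, fun h => htZ j (Or.inl h)⟩, fun e he J hJ => ?_⟩
  have hφΦ : ∀ x, φ e x ≤ Φ x := fun x =>
    Finset.single_le_sum (f := fun e => φ e x) (fun _ _ => zero_le) he
  have hpt : ∀ j : ℤ, ∀ x ∈ Ioo ((j : ℝ) * h) ((j + 1) * h),
      N e (t j) ≤ N e x + Φ x + (Φ (t j) + ENNReal.ofReal b) := by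
    intro j x hx
    have h1 : N e (t j) ≠ ⊤ := fun h => htZ j (Or.inr (mem_biUnion he h))
    have h2 : dist (t j) x < δ e := by
      rw [Real.dist_eq, abs_lt]
      have := hh₀δ e he
      constructor <;> nlinarith [(ht j).1, (ht j).2, hx.1, hx.2]
    have h3 := (hg e he).2.2 _ _ h2
    rw [Real.dist_eq, abs_lt] at h3
    have h4 : (N e (t j)).toReal ≤ (N e x).toReal + ‖(N e x).toReal - g e x‖ +
        (‖(N e (t j)).toReal - g e (t j)‖ + b) := by
      rw [Real.norm_eq_abs, Real.norm_eq_abs]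
      have a1 := le_abs_self ((N e (t j)).toReal - g e (t j))
      have a2 := neg_abs_le ((N e x).toReal - g e x)
      linarith [h3.2]
    calc N e (t j) = ENNReal.ofReal (N e (t j)).toReal := (ENNReal.ofReal_toReal h1).symm
      _ ≤ ENNReal.ofReal ((N e x).toReal + ‖(N e x).toReal - g e x‖ +
        (‖(N e (t j)).toReal - g e (t j)‖ + b)) := ENNReal.ofReal_le_ofReal h4
      _ ≤ ENNReal.ofReal (N e x).toReal + φ e x + (φ e (t j) + ENNReal.ofReal b) := by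
        refine ENNReal.ofReal_add_le.trans (add_le_add (ENNReal.ofReal_add_le.trans ?_)
          (ENNReal.ofReal_add_le.trans ?_)) <;> rw [ofReal_norm]
      _ ≤ _ := add_le_add (add_le_add ENNReal.ofReal_toReal_le (hφΦ x))
        (add_le_add (hφΦ _) le_rfl)
  have hsl : ∀ j : ℤ, ENNReal.ofReal h * N e (t j) ≤
      (∫⁻ x in Ioo ((j : ℝ) * h) ((j + 1) * h), N e x) +
        (∫⁻ x in Ioo ((j : ℝ) * h) ((j + 1) * h), Φ x) +
        ((∫⁻ x in Ioo ((j : ℝ) * h) ((j + 1) * h), Φ x) + ENNReal.ofReal h * ENNReal.ofReal b) := by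
    intro j
    have hv : volume (Ioo ((j : ℝ) * h) ((j + 1) * h)) = ENNReal.ofReal h := by
      rw [Real.volume_Ioo]; congr 1; ring
    calc ENNReal.ofReal h * N e (t j)
        = ∫⁻ _ in Ioo ((j : ℝ) * h) ((j + 1) * h), N e (t j) := by
          rw [setLIntegral_const, hv, mul_comm (N e (t j))]
      _ ≤ ∫⁻ x in Ioo ((j : ℝ) * h) ((j + 1) * h),
          (N e x + Φ x + (Φ (t j) + ENNReal.ofReal b)) :=
          setLIntegral_mono' measurableSet_Ioo (hpt j)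
      _ = (∫⁻ x in Ioo ((j : ℝ) * h) ((j + 1) * h), N e x) +
        (∫⁻ x in Ioo ((j : ℝ) * h) ((j + 1) * h), Φ x) +
          (ENNReal.ofReal h * Φ (t j) + ENNReal.ofReal h * ENNReal.ofReal b) := by
          rw [lintegral_add_right _ measurable_const, lintegral_add_right _ hΦm,
            setLIntegral_const, hv, add_mul (Φ (t j)), mul_comm (Φ (t j)), mul_comm (ENNReal.ofReal b)]
      _ ≤ _ := by gcongr; exact htΦ j
  calc ∑ j ∈ J, ENNReal.ofReal h * N e (t j)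
      ≤ ∑ j ∈ J, ((∫⁻ x in Ioo ((j : ℝ) * h) ((j + 1) * h), N e x) +
        (∫⁻ x in Ioo ((j : ℝ) * h) ((j + 1) * h), Φ x) +
        ((∫⁻ x in Ioo ((j : ℝ) * h) ((j + 1) * h), Φ x) + ENNReal.ofReal h * ENNReal.ofReal b)) :=
        Finset.sum_le_sum fun j _ => hsl j
    _ ≤ (∫⁻ x, N e x) + s.card * a + (s.card * a + a) := by
        rw [Finset.sum_add_distrib, Finset.sum_add_distrib, Finset.sum_add_distrib]
        refine add_le_add (add_le_add (sum_slab_le hh J _) ((sum_slab_le hh J _).trans hΦi))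
          (add_le_add ((sum_slab_le hh J _).trans hΦi) ?_)
        rw [Finset.sum_const, nsmul_eq_mul, ← mul_assoc]
        refine le_trans ?_ hb
        gcongr
        rw [← ENNReal.ofReal_natCast, ← ENNReal.ofReal_mul (Nat.cast_nonneg _)]
        exact ENNReal.ofReal_le_ofReal hJ
    _ = (∫⁻ x, N e x) + (2 * s.card + 1) * a := by ring
    _ ≤ _ := by gcongr

end P073
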