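import Vale.Agent.P073Z.GRID.Defs
import Vale.Agent.P073Z.GRID.Riem

/-!
# The target grid: recursion for the planes (core)
-/

open Set Metric Topology Filter MeasureTheory
open scoped ENNReal NNReal

namespace P073

namespace Grid

namespace Pl

variable {ι : Type} {f : E3 → E3} {c : ι → Set E3} {T : Fin 3 → Set ℝ}

/-- the invariant of the recursion -/
def Inv (f : E3 → E3) (c : ι → Set E3) (T : Fin 3 → Set ℝ) (P : Fin 3 → Finset ℝ) : Prop :=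
  (∀ j, ∀ t ∈ P j, t ∈ T j ∧ ∀ e, {x ∈ c e | f x j = t}.Finite) ∧
    ∀ i j, i ≠ j → ∀ e, ∀ x ∈ c e, f x i ∈ P i → f x j ∉ P j

theorem exists_null [Countable ι] (hT : ∀ j, ∀ᵐ t : ℝ, t ∈ T j)
    (hae : ∀ e j, ∀ᵐ t : ℝ, {x ∈ c e | f x j = t}.Finite) {P : Fin 3 → Finset ℝ}
    (hP : Inv f c T P) (j : Fin 3) : ∃ Z : Set ℝ, volume Z = 0 ∧ ∀ P' : Fin 3 → Finset ℝ,
      (∀ i, i ≠ j → P' i = P i) → (∀ t ∈ P' j, t ∈ P j ∨ t ∉ Z) → Inv f c T P' := by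
  have h1 : ∀ᵐ t : ℝ, t ∈ T j ∧ ∀ e, {x ∈ c e | f x j = t}.Finite :=
    (hT j).and (ae_all_iff.2 fun e => hae e j)
  set D : Set ℝ := ⋃ i, ⋃ t ∈ P i, ⋃ e, (fun x => f x j) '' {x ∈ c e | f x i = t} with hD
  have hDc : D.Countable := countable_iUnion fun i => (P i).countable_toSet.biUnion fun t ht =>
    countable_iUnion fun e => (((hP.1 i t ht).2 e).image _).countable
  refine ⟨{t | ¬ (t ∈ T j ∧ ∀ e, {x ∈ c e | f x j = t}.Finite)} ∪ D,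
    measure_union_null (ae_iff.1 h1) (hDc.measure_zero _), fun P' h2 h3 => ?_⟩
  have key : ∀ i, i ≠ j → ∀ e, ∀ x ∈ c e, f x i ∈ P i → f x j ∉ P' j := by
    intro i hij e x hx hi hj
    rcases h3 _ hj with h | h
    · exact hP.2 i j hij e x hx hi h
    · refine h (Or.inr ?_)
      simp only [hD, mem_iUnion]
      exact ⟨i, f x i, hi, e, x, ⟨hx, rfl⟩, rfl⟩
  refine ⟨fun i t ht => ?_, fun i k hik e x hx hi hk => ?_⟩
  · by_cases hij : i = j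
    · subst hij
      rcases h3 t ht with h | h
      · exact hP.1 i t h
      · by_contra hn
        exact h (Or.inl hn)
    · exact hP.1 i t (h2 i hij ▸ ht)
  · by_cases hij : i = j
    · subst hij
      exact key k (Ne.symm hik) e x hx (h2 k (Ne.symm hik) ▸ hk) hi
    · by_cases hkj : k = j
      · subst hkj
        exact key i hij e x hx (h2 i hij ▸ hi) hk
      · exact hP.2 i k hik e x hx (h2 i hij ▸ hi) (h2 k hkj ▸ hk)

theorem extend [Countable ι] (hT : ∀ j, ∀ᵐ t : ℝ, t ∈ T j)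
    (hae : ∀ e j, ∀ᵐ t : ℝ, {x ∈ c e | f x j = t}.Finite) {P : Fin 3 → Finset ℝ}
    (hP : Inv f c T P) (Φ : Fin 3 → Finset ℝ → Prop)
    (hΦ : ∀ j, ∀ Z : Set ℝ, volume Z = 0 → ∃ Q : Finset ℝ, (∀ t ∈ Q, t ∉ Z) ∧ Φ j Q) :
    ∃ Q : Fin 3 → Finset ℝ, Inv f c T (fun j => P j ∪ Q j) ∧ ∀ j, Φ j (Q j) := by
  have main : ∀ S : Finset (Fin 3), ∃ Q : Fin 3 → Finset ℝ, Inv f c T (fun j => P j ∪ Q j) ∧
      (∀ j ∈ S, Φ j (Q j)) ∧ ∀ j, j ∉ S → Q j = ∅ := by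
    intro S
    induction S using Finset.induction_on with
    | empty => exact ⟨fun _ => ∅, by simpa using hP, by simp, fun _ _ => rfl⟩
    | insert j S hj ih =>
      obtain ⟨Q, h1, h2, h3⟩ := ih
      obtain ⟨Z, hZ, hZ'⟩ := exists_null hT hae h1 j
      obtain ⟨Q', hQ', hΦ'⟩ := hΦ j Z hZ
      refine ⟨Function.update Q j Q', hZ' _ (fun i hi => by simp [Function.update_of_ne hi]) ?_,
        fun i hi => ?_, fun i hi => ?_⟩
      · intro t ht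
        simp only [Function.update_self, Finset.mem_union] at ht ⊢
        rcases ht with h | h
        · exact Or.inl (Or.inl h)
        · exact Or.inr (hQ' t h)
      · by_cases hij : i = j
        · subst hij; simpa using hΦ'
        · rw [Function.update_of_ne hij]
          exact h2 i ((Finset.mem_insert.1 hi).resolve_left hij)
      · have hij : i ≠ j := fun h => hi (h ▸ Finset.mem_insert_self _ _)
        rw [Function.update_of_ne hij]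
        exact h3 i fun h => hi (Finset.mem_insert_of_mem h)
  obtain ⟨Q, h1, h2, -⟩ := main Finset.univ
  exact ⟨Q, h1, fun j => h2 j (Finset.mem_univ j)⟩

theorem exists_small {C ε : ℝ≥0∞} (hC : C ≠ ⊤) (hε : ε ≠ 0) :
    ∃ b : ℝ, 0 < b ∧ ∀ h ≤ b, ENNReal.ofReal h * C ≤ ε := by
  have h1 : ε / (C + 1) ≠ 0 := ENNReal.div_ne_zero.2 ⟨hε, by finiteness⟩
  obtain ⟨r, hr0, hr⟩ := ENNReal.lt_iff_exists_nnreal_btwn.1 (pos_iff_ne_zero.2 h1)
  refine ⟨r, by exact_mod_cast hr0, fun h hh => ?_⟩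
  calc ENNReal.ofReal h * C ≤ (ε / (C + 1)) * (C + 1) := by
        gcongr
        · exact (ENNReal.ofReal_le_ofReal hh).trans (by rw [ENNReal.ofReal_coe_nnreal]; exact hr.le)
        · exact le_self_add
    _ ≤ ε := by rw [mul_comm]; exact ENNReal.mul_div_le

theorem exists_third {α : Type} (s : Finset α) (ε : α → ℝ≥0∞) (hε : ∀ e, ε e ≠ 0) :
    ∃ a : ℝ≥0∞, a ≠ 0 ∧ ∀ e ∈ s, 3 * a ≤ ε e := by
  by_cases hs : s.Nonempty
  · obtain ⟨e, -, he⟩ := s.exists_min_image ε hs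
    exact ⟨ε e / 3, ENNReal.div_ne_zero.2 ⟨hε e, by norm_num⟩,
      fun e' he' => ENNReal.mul_div_le.trans (he e' he')⟩
  · exact ⟨1, one_ne_zero, fun e he => absurd ⟨e, he⟩ hs⟩

/-- the slabs which meet a bounded interval -/
theorem slabs (R : ℝ) {h : ℝ} (hh : 0 < h) (h1 : h ≤ 1) : ∃ J : Finset ℤ,
    (J.card : ℝ) * h ≤ 2 * |R| + 7 ∧ ∀ x ∈ Icc (-R) R, ⌊x / h⌋ - 1 ∈ J ∧ ⌊x / h⌋ + 1 ∈ J := by
  set M : ℕ := ⌈|R| / h⌉₊ + 2 with hM
  have hM1 : (M : ℝ) ≤ |R| / h + 3 := by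
    have := Nat.ceil_lt_add_one (div_nonneg (abs_nonneg R) hh.le)
    push_cast [hM]; linarith
  have hM2 : |R| / h + 2 ≤ (M : ℝ) := by
    have := Nat.le_ceil (|R| / h)
    push_cast [hM]; linarith
  refine ⟨Finset.Icc (-(M : ℤ)) M, ?_, fun x hx => ?_⟩
  · have e : ((Finset.Icc (-(M : ℤ)) M).card : ℝ) = 2 * M + 1 := by
      rw [Int.card_Icc]
      have : ((M : ℤ) + 1 - -(M : ℤ)).toNat = 2 * M + 1 := by omega
      rw [this]; push_cast; ring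
    rw [e]
    have e2 : |R| / h * h = |R| := div_mul_cancel₀ _ hh.ne'
    nlinarith
  · have a1 : x / h ≤ |R| / h := div_le_div_of_nonneg_right (hx.2.trans (le_abs_self R)) hh.le
    have a2 : -(|R| / h) ≤ x / h := by
      rw [← neg_div]
      exact div_le_div_of_nonneg_right ((neg_le_neg (le_abs_self R)).trans hx.1) hh.le
    have b1 := Int.floor_le (x / h)
    have b2 := Int.lt_floor_add_one (x / h)
    have c1 : ⌊x / h⌋ + 1 ≤ (M : ℤ) := by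
      have : ((⌊x / h⌋ + 1 : ℤ) : ℝ) ≤ ((M : ℤ) : ℝ) := by push_cast; linarith
      exact_mod_cast this
    have c2 : -(M : ℤ) ≤ ⌊x / h⌋ - 1 := by
      have : ((-(M : ℤ) : ℤ) : ℝ) ≤ ((⌊x / h⌋ - 1 : ℤ) : ℝ) := by push_cast; linarith
      exact_mod_cast this
    simp only [Finset.mem_Icc]
    omega

/-- one stage of the recursion -/
theorem stage [Countable ι] (hT : ∀ j, ∀ᵐ t : ℝ, t ∈ T j)
    (hae : ∀ e j, ∀ᵐ t : ℝ, {x ∈ c e | f x j = t}.Finite) (N : ι → Fin 3 → ℝ → ℝ≥0∞)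
    (hm : ∀ e j, Measurable (N e j)) (hi : ∀ e j, ∫⁻ t, N e j t ≠ ⊤)
    (hN : ∀ e j t, {x ∈ c e | f x j = t}.Finite → N e j t ≠ ⊤) (s : Finset ι)
    (hs : ∀ e, e ∉ s → ∀ j t, N e j t = 0) (R : ℝ) {d : ℝ} (hd : 0 < d) (ε : ι → ℝ≥0∞)
    (hε : ∀ e, ε e ≠ 0) {P : Fin 3 → Finset ℝ} (hP : Inv f c T P) :
    ∃ (P' : Fin 3 → Finset ℝ) (h : ℝ), Inv f c T P' ∧ (∀ j, P j ⊆ P' j) ∧ 0 < h ∧ h ≤ d ∧
      (∀ j, ∀ x ∈ Icc (-R) R, (∃ t ∈ P' j, x - h ≤ t ∧ t < x) ∧ ∃ t ∈ P' j, x < t ∧ t ≤ x + h) ∧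
      ∀ e j, ENNReal.ofReal h * ∑ t ∈ P' j, N e j t ≤ 2 * (∫⁻ t, N e j t) + ε e := by
  classical
  obtain ⟨a, ha0, ha⟩ := exists_third s ε hε
  obtain ⟨b, hb0, hb⟩ := exists_small (C := ∑ e ∈ s, ∑ j, ∑ t ∈ P j, N e j t)
    (ENNReal.sum_ne_top.2 fun e _ => ENNReal.sum_ne_top.2 fun j _ => ENNReal.sum_ne_top.2
      fun t ht => hN e j t ((hP.1 j t ht).2 e)) ha0
  choose h₀ hh₀ hR using fun j => riemann s (fun e => N e j) (fun e _ => hm e j)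
    (fun e _ => hi e j) (2 * |R| + 7) ha0
  obtain ⟨j₀, -, hj₀⟩ := Finset.univ.exists_min_image h₀ Finset.univ_nonempty
  set h : ℝ := min (min (h₀ j₀) 1) (min b d / 2) with hh
  have hpos : 0 < h := lt_min (lt_min (hh₀ _) one_pos) (half_pos (lt_min hb0 hd))
  have hle0 : ∀ j, h ≤ h₀ j := fun j =>
    ((min_le_left _ _).trans (min_le_left _ _)).trans (hj₀ j (Finset.mem_univ j))
  have hle1 : h ≤ 1 := (min_le_left _ _).trans (min_le_right _ _)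
  have hle2 : 2 * h ≤ min b d := by
    have : h ≤ min b d / 2 := min_le_right _ _
    linarith
  obtain ⟨J, hJ, hJ'⟩ := slabs R hpos hle1
  obtain ⟨Q, hQ, hQ'⟩ := extend hT hae hP (fun j Q => ∃ t : ℤ → ℝ, Q = J.image t ∧
      (∀ k : ℤ, t k ∈ Ioo ((k : ℝ) * h) ((k + 1) * h)) ∧
      ∀ e ∈ s, ∑ k ∈ J, ENNReal.ofReal h * N e j (t k) ≤ (∫⁻ x, N e j x) + a) (by
    intro j Z hZ
    obtain ⟨t, ht, ht'⟩ := hR j h hpos (hle0 j) Z hZ
    refine ⟨J.image t, fun u hu => ?_, t, rfl, fun k => (ht k).1, fun e he => ht' e he J hJ⟩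
    obtain ⟨k, -, rfl⟩ := Finset.mem_image.1 hu
    exact (ht k).2)
  refine ⟨_, 2 * h, hQ, fun j => Finset.subset_union_left, by linarith,
    hle2.trans (min_le_right _ _), fun j x hx => ?_, fun e j => ?_⟩
  · obtain ⟨t, hQt, ht, -⟩ := hQ' j
    have b1 : (⌊x / h⌋ : ℝ) * h ≤ x := (le_div_iff₀ hpos).1 (Int.floor_le _)
    have b2 : x < (⌊x / h⌋ + 1 : ℝ) * h := (div_lt_iff₀ hpos).1 (Int.lt_floor_add_one _)
    have hmem : ∀ k ∈ J, t k ∈ P j ∪ Q j := fun k hk =>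
      Finset.mem_union_right _ (hQt ▸ Finset.mem_image_of_mem t hk)
    have c1 := ht (⌊x / h⌋ - 1)
    have c2 := ht (⌊x / h⌋ + 1)
    push_cast at c1 c2
    refine ⟨⟨_, hmem _ (hJ' x hx).1, ?_, ?_⟩, ⟨_, hmem _ (hJ' x hx).2, ?_, ?_⟩⟩
    · nlinarith [c1.1]
    · nlinarith [c1.2]
    · nlinarith [c2.1]
    · nlinarith [c2.2]
  · by_cases he : e ∈ s
    swap
    · simp [hs e he]
    obtain ⟨t, hQt, -, ht⟩ := hQ' j
    have a1 : ∑ u ∈ P j ∪ Q j, N e j u ≤ ∑ u ∈ P j, N e j u + ∑ u ∈ Q j, N e j u := by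
      rw [← Finset.sum_union_inter]; exact le_self_add
    have a2 : ∑ u ∈ Q j, N e j u ≤ ∑ k ∈ J, N e j (t k) := by
      rw [hQt]; exact Finset.sum_image_le_of_nonneg fun _ _ => zero_le
    have a3 : ∑ u ∈ P j, N e j u ≤ ∑ e ∈ s, ∑ j, ∑ t ∈ P j, N e j t :=
      (Finset.single_le_sum (f := fun j => ∑ t ∈ P j, N e j t) (fun _ _ => zero_le)
        (Finset.mem_univ j)).trans
        (Finset.single_le_sum (f := fun e => ∑ j, ∑ t ∈ P j, N e j t) (fun _ _ => zero_le) he)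
    have a4 : ENNReal.ofReal (2 * h) * ∑ u ∈ P j, N e j u ≤ a :=
      (mul_le_mul_right a3 _).trans (hb _ (hle2.trans (min_le_left _ _)))
    have a5 : ENNReal.ofReal (2 * h) * ∑ k ∈ J, N e j (t k) ≤ 2 * ((∫⁻ x, N e j x) + a) := by
      rw [ENNReal.ofReal_mul zero_le_two, ENNReal.ofReal_ofNat, mul_assoc, Finset.mul_sum]
      exact mul_le_mul_right (ht e he) _
    calc ENNReal.ofReal (2 * h) * ∑ u ∈ P j ∪ Q j, N e j u
        ≤ ENNReal.ofReal (2 * h) * (∑ u ∈ P j, N e j u + ∑ k ∈ J, N e j (t k)) :=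
          mul_le_mul_right (a1.trans (add_le_add le_rfl a2)) _
      _ ≤ a + 2 * ((∫⁻ x, N e j x) + a) := by rw [mul_add]; exact add_le_add a4 a5
      _ = 2 * (∫⁻ x, N e j x) + 3 * a := by ring
      _ ≤ _ := add_le_add le_rfl (ha e he)

theorem core {κ : Type} [Countable ι] (hT : ∀ j, ∀ᵐ t : ℝ, t ∈ T j)
    (hae : ∀ e j, ∀ᵐ t : ℝ, {x ∈ c e | f x j = t}.Finite) (N : ℕ → ι → Fin 3 → ℝ → ℝ≥0∞)
    (hm : ∀ n e j, Measurable (N n e j)) (hi : ∀ n e j, ∫⁻ t, N n e j t ≠ ⊤)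
    (hN : ∀ n e j t, {x ∈ c e | f x j = t}.Finite → N n e j t ≠ ⊤)
    (hs : ∀ n, ∃ s : Finset ι, ∀ e, e ∉ s → ∀ j t, N n e j t = 0) (R : ℝ) (d : ℕ → ℝ)
    (hd : ∀ n, 0 < d n) (ε : ι → ℕ → ℝ≥0∞) (hε : ∀ e n, ε e n ≠ 0) (s : Finset κ)
    (co : κ → Fin 3) (A : κ → Set ℝ) (hA : ∀ k ∈ s, volume (A k) ≠ 0) :
    ∃ (P : ℕ → Fin 3 → Finset ℝ) (h : ℕ → ℝ), (∀ n j, P n j ⊆ P (n + 1) j) ∧
      (∀ n, 0 < h n ∧ h n ≤ d n) ∧ (∀ n, Inv f c T (P n)) ∧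
      (∀ n j, ∀ x ∈ Icc (-R) R, (∃ t ∈ P n j, x - h n ≤ t ∧ t < x) ∧
        ∃ t ∈ P n j, x < t ∧ t ≤ x + h n) ∧
      (∀ k ∈ s, ∃ t ∈ A k, t ∈ P 0 (co k)) ∧
      ∀ e n j, ENNReal.ofReal (h n) * ∑ t ∈ P n j, N n e j t ≤
        2 * (∫⁻ t : ℝ, N n e j t) + ε e n := by
  classical
  have h0 : Inv f c T (fun _ => ∅) := ⟨by simp, by simp⟩
  obtain ⟨Q, hQ, hQ'⟩ := extend hT hae h0 (fun _ Q => ∀ k ∈ s, ∃ t ∈ A k, t ∈ Q) (by
    intro j Z hZ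
    have : ∀ k, ∃ t, k ∈ s → t ∈ A k ∧ t ∉ Z := by
      intro k
      by_cases hk : k ∈ s
      · have h1 := hA k hk
        rw [← measure_sdiff_null hZ] at h1
        obtain ⟨t, ht⟩ := nonempty_of_measure_ne_zero h1
        exact ⟨t, fun _ => ht⟩
      · exact ⟨0, fun h => absurd h hk⟩
    choose t ht using this
    refine ⟨s.image t, fun u hu => ?_, fun k hk => ⟨t k, (ht k hk).1, Finset.mem_image_of_mem t hk⟩⟩
    obtain ⟨k, hk, rfl⟩ := Finset.mem_image.1 hu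
    exact (ht k hk).2)
  choose sn hsn using hs
  choose P' h h1 h2 h3 h4 h5 h6 using fun (n : ℕ) (P : {P // Inv f c T P}) =>
    stage hT hae (N n) (hm n) (hi n) (hN n) (sn n) (hsn n) R (hd n) (fun e => ε e n)
      (fun e => hε e n) P.2
  let S : ℕ → {P // Inv f c T P} := fun n =>
    Nat.rec ⟨_, hQ⟩ (fun n P => ⟨P' n P, h1 n P⟩) n
  refine ⟨fun n => P' n (S n), fun n => h n (S n), fun n j => h2 (n + 1) (S (n + 1)) j,
    fun n => ⟨h3 _ _, h4 _ _⟩, fun n => h1 _ _, fun n => h5 _ _, fun k hk => ?_,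
    fun e n j => h6 _ _ e j⟩
  obtain ⟨t, ht, ht'⟩ := hQ' (co k) k hk
  exact ⟨t, ht, h2 0 (S 0) (co k) (Finset.mem_union_right _ ht')⟩

end Pl

end Grid

end P073
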